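import Crest.Agent.R204.BottS_671

-- ▼ part N218/D8/Wood
section

/-!
# The Wood lemma: a real invertible matrix that is complex-homotopic to `1` is stably `1 - 2P`
-/

set_option autoImplicit false
set_option linter.unusedSectionVars false

open Filter Topology Polynomial Matrix
open scoped FourierTransform

namespace Crest.Agent.N218.D8

open Crest.Agent.R204.Bott671

/-- `R` is the complexification of `A`. -/
structure Cx (A R : Type*) [NormedCommRing A] [NormedAlgebra ℝ A] [NormedCommRing R]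
    [NormedAlgebra ℂ R] where
  τ : R →+* R
  cont : Continuous τ
  inv : ∀ a, τ (τ a) = a
  alg : ∀ z : ℂ, τ (algebraMap ℂ R z) = algebraMap ℂ R (starRingEnd ℂ z)
  φ : A →+* R
  inj : Function.Injective φ
  st : ∀ a, τ (φ a) = φ a
  ex : ∀ r, τ r = r → ∃ a, φ a = r
  sm : ∀ t : ℝ, φ (algebraMap ℝ A t) = algebraMap ℂ R t

section sand

variable {S : Type*} [CommRing S] {ι κ : Type} [Fintype ι] [DecidableEq ι] [Fintype κ]
  [DecidableEq κ]

theorem unit_sand {E' F' : Matrix ι κ S} {E F : Matrix κ ι S} {m : Matrix κ κ S}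
    (h1 : E' * E = 1) (h4 : F * F' = 1) (hm : IsUnit m) : IsUnit (E' * m * F) := by
  obtain ⟨w, rfl⟩ := hm
  have e : E' * (w : Matrix κ κ S) * F * (F' * (↑w⁻¹ : Matrix κ κ S) * E) = 1 := by
    calc E' * (w : Matrix κ κ S) * F * (F' * (↑w⁻¹ : Matrix κ κ S) * E)
        = E' * ((w : Matrix κ κ S) * (F * F') * (↑w⁻¹ : Matrix κ κ S)) * E := by
          simp only [Matrix.mul_assoc]
      _ = 1 := by rw [h4, Matrix.mul_one, Units.mul_inv, Matrix.mul_one, h1]
  exact ⟨⟨_, _, e, mul_eq_one_comm.1 e⟩, rfl⟩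

end sand

variable {A R : Type*} [NormedCommRing A] [NormedAlgebra ℝ A] [NormedCommRing R]
  [NormedAlgebra ℂ R] [CompleteSpace R]
  {ι : Type} [Fintype ι] [DecidableEq ι]

namespace Cx

variable (c : Cx A R)

theorem t_smul (z : ℂ) (r : R) : c.τ (z • r) = starRingEnd ℂ z • c.τ r := by
  rw [Algebra.smul_def, map_mul, c.alg, Algebra.smul_def]

/-- conjugation as a real continuous linear map. -/
noncomputable def stL : R →L[ℝ] R where
  toFun := c.τ
  map_add' := map_add c.τ
  map_smul' := fun t r => by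
    rw [RingHom.id_apply, ← Complex.coe_smul, ← Complex.coe_smul, c.t_smul]
    simp
  cont := c.cont

theorem t_circ (z : Circle) (r : R) : c.τ (z • r) = z⁻¹ • c.τ r := by
  rw [Circle.smul_def, Circle.smul_def, c.t_smul, Circle.coe_inv_eq_conj]

theorem t_coef (G : C(Circle, R)) (h : ∀ z, c.τ (G z) = G z⁻¹) (k : ℤ) :
    c.τ (coef G k) = coef G k := by
  have h1 : c.τ (coef G k) = c.stL (coef G k) := rfl
  rw [h1, coef, ← ContinuousLinearMap.intervalIntegral_comp_comm c.stL
    (intervalIntegrable_integrand G k)]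
  have h2 := intervalIntegral.integral_comp_sub_left (a := (0:ℝ)) (b := 1)
    (fun t : ℝ => (((𝐞 t) ^ (-k) : Circle)) • G (𝐞 t)) 1
  rw [sub_self, sub_zero] at h2
  rw [← h2]
  refine intervalIntegral.integral_congr fun t _ => ?_
  have h3 : (𝐞 (1 - t) : Circle) = (𝐞 t)⁻¹ := by
    have h4 : (𝐞 (1:ℝ) : Circle) = 1 := by
      ext
      rw [Real.fourierChar_apply', Circle.coe_exp]
      simp
    rw [sub_eq_add_neg, AddChar.map_add_eq_mul, h4, one_mul, AddChar.map_neg_eq_inv]
  change c.τ ((((𝐞 t) ^ (-k) : Circle)) • G (𝐞 t)) = _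
  simp only [h3]
  rw [c.t_circ, h, _root_.inv_zpow]

theorem unit {a : A} (h : IsUnit (c.φ a)) : IsUnit a := by
  obtain ⟨r, hr⟩ := h.exists_right_inv
  have h2 : c.φ a * c.τ r = 1 := by
    have := congrArg c.τ hr
    rwa [map_mul, c.st, map_one] at this
  have h3 : c.τ r = r := by
    calc c.τ r = (c.φ a * r) * c.τ r := by rw [hr, one_mul]
      _ = (c.φ a * c.τ r) * r := by ring
      _ = r := by rw [h2, one_mul]
  obtain ⟨b, rfl⟩ := c.ex r h3
  exact IsUnit.of_mul_eq_one b (c.inj (by rw [map_mul, hr, map_one]))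

theorem unitM {M : Matrix ι ι A} (h : IsUnit (M.map c.φ)) : IsUnit M := by
  rw [Matrix.isUnit_iff_isUnit_det] at h ⊢
  refine c.unit ?_
  rwa [RingHom.map_det]

theorem injM {κ l : Type} {M N : Matrix κ l A} (h : M.map c.φ = N.map c.φ) : M = N := by
  ext i j
  exact c.inj (congrFun (congrFun h i) j)

theorem map_smul {κ l : Type} (t : ℝ) (M : Matrix κ l A) :
    (t • M).map c.φ = (t : ℂ) • M.map c.φ := by
  ext i j
  simp [Algebra.smul_def, c.sm]

theorem exM {κ l : Type} (M : Matrix κ l R) (h : ∀ i j, c.τ (M i j) = M i j) :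
    ∃ N : Matrix κ l A, N.map c.φ = M := by
  choose N hN using fun i j => c.ex _ (h i j)
  exact ⟨N, by ext i j; exact hN i j⟩

/-- the Fourier coefficients of the inverse of a real pencil are real. -/
theorem pen_real (p : Pen R ι) (a b : Matrix ι ι A) (ha : p.a = a.map c.φ) (hb : p.b = b.map c.φ)
    (k : ℤ) : ∃ N : Matrix ι ι A, N.map c.φ = p.c k := by
  refine c.exM _ fun i j => c.t_coef (p.G i j) (fun z => ?_) k
  let σ : R →+* R := c.τ
  have e1 : ∀ z : Circle, evM z (pl p.a p.b) = p.a + algebraMap ℂ R (z : ℂ) • p.b := fun z => by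
    rw [pl, evM_add, zi_smul_cM]
    congr 1
  have e2 : (evM z (pl p.a p.b)).map σ = evM z⁻¹ (pl p.a p.b) := by
    rw [e1, e1, ha, hb]
    ext i j
    simp only [Matrix.map_apply, Matrix.add_apply, Matrix.smul_apply, smul_eq_mul, σ,
      map_add, map_mul, c.st, c.alg, Circle.coe_inv_eq_conj]
  have e3 : evM z⁻¹ (pl p.a p.b) * (evM z p.G).map σ = 1 := by
    rw [← e2, ← Matrix.map_mul, ← evM_mul, p.fG, evM_one]
    simp
  have e4 : evM z⁻¹ p.G * evM z⁻¹ (pl p.a p.b) = 1 := by rw [← evM_mul, p.Gf, evM_one]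
  have e5 : (evM z p.G).map σ = evM z⁻¹ p.G := by
    calc (evM z p.G).map σ = (evM z⁻¹ p.G * evM z⁻¹ (pl p.a p.b)) * (evM z p.G).map σ := by
          rw [e4, one_mul]
      _ = evM z⁻¹ p.G := by rw [mul_assoc, e3, mul_one]
  exact congrFun (congrFun e5 i) j

/-- Real pencils. -/
theorem pencil (a b : Matrix ι ι A) (h : IsUnit (pl (a.map c.φ) (b.map c.φ))) :
    ∃ P u : Matrix ι ι A, P * P = P ∧ Conn (a + b) u ∧ Conn (a - b) (u * (1 - (P + P))) := by
  let p := Pen.ofUnit _ _ h
  have ha : p.a = a.map c.φ := rfl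
  have hb : p.b = b.map c.φ := rfl
  obtain ⟨c1, h1⟩ := c.pen_real p a b ha hb (-1)
  obtain ⟨c0, h0⟩ := c.pen_real p a b ha hb 0
  let f : Matrix ι ι A →+* Matrix ι ι R := c.φ.mapMatrix
  have finj : ∀ {M N : Matrix ι ι A}, f M = f N → M = N := fun h => c.injM h
  have fa : f a = p.a := rfl
  have fb : f b = p.b := rfl
  have f1 : f c1 = p.c (-1) := h1
  have f0 : f c0 = p.c 0 := h0
  obtain ⟨P, hP⟩ : ∃ P, P = c1 * b := ⟨_, rfl⟩
  obtain ⟨M, hM⟩ : ∃ M, M = c1 * a := ⟨_, rfl⟩
  obtain ⟨N, hN⟩ : ∃ N, N = c0 * b := ⟨_, rfl⟩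
  obtain ⟨u, hu⟩ : ∃ u, u = b * P + a * (1 - P) := ⟨_, rfl⟩
  have fP : f P = p.P := by rw [hP, map_mul, f1, fb]; rfl
  have fM : f M = p.M := by rw [hM, map_mul, f1, fa]; rfl
  have fN : f N = p.N := by rw [hN, map_mul, f0, fb]; rfl
  have fu : f u = p.u := by rw [hu, map_add, map_mul, map_mul, map_sub, map_one, fP, fa, fb]; rfl
  have PP : P * P = P := finj (by rw [map_mul, fP, p.P_mul_P])
  have PM : P * M = M := finj (by rw [map_mul, fP, fM, p.P_mul_M])
  have PN : P * N = 0 := finj (by rw [map_mul, fP, fN, p.P_mul_N, map_zero])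
  have MN : M * N = 0 := finj (by rw [map_mul, fM, fN, p.M_mul_N, map_zero])
  have uu : IsUnit u := c.unitM (by change IsUnit (f u); rw [fu]; exact p.isUnit_u)
  have d1 : a + b = u * (P + (1 - P) + M + N) := finj (by
    have := p.decomp (S := ℤ) 1
    simp only [one_smul] at this
    simp only [map_add, map_mul, map_sub, map_one, fa, fb, fu, fP, fM, fN]
    exact this)
  have d2 : a - b = u * (-P + (1 - P) + M - N) := finj (by
    have := p.decomp (S := ℤ) (-1)
    simp only [neg_smul, one_smul, ← sub_eq_add_neg] at this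
    simp only [map_add, map_mul, map_sub, map_one, map_neg, fa, fb, fu, fP, fM, fN]
    exact this)
  have key : ∀ (Y : Matrix ι ι A), Tendsto (fun j : ℕ => (-f Y) ^ j) atTop (𝓝 0) →
      ∀ e : ℝ, |e| ≤ 1 → Conn 1 (1 + e • Y) := by
    intro Y hY e he
    have := Conn.of_real (F := fun t : ℝ => 1 + (t * e) • Y) (by fun_prop) (fun t ht => by
      refine c.unitM ?_
      change IsUnit (f (1 + (t * e) • Y))
      rw [map_add, map_one]
      change IsUnit (1 + ((t * e) • Y).map c.φ)
      rw [c.map_smul]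
      refine isUnit_one_add_smul hY ?_
      rw [Complex.norm_real, Real.norm_eq_abs, abs_mul, abs_of_nonneg ht.1]
      exact mul_le_one₀ ht.2 (abs_nonneg _) he)
    simpa using this
  have kM := key M (by rw [fM]; exact p.tendsto_M_pow)
  have kN := key N (by rw [fN]; exact p.tendsto_N_pow)
  have uP : IsUnit (1 - (P + P)) := by
    have e : (1 - (P + P)) * (1 - (P + P)) = 1 := by
      calc (1 - (P + P)) * (1 - (P + P)) = 1 - 4 • P + 4 • (P * P) := by noncomm_ring
        _ = 1 := by rw [PP]; abel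
    exact ⟨⟨_, _, e, e⟩, rfl⟩
  refine ⟨P, u, PP, ?_, ?_⟩
  · have := ((Conn.refl uu).mul (kM 1 (by simp))).mul (kN 1 (by simp))
    rw [mul_one, mul_one, one_smul, one_smul] at this
    have e : u * (1 + M) * (1 + N) = a + b := by
      rw [d1, mul_assoc]
      congr 1
      calc (1 + M) * (1 + N) = 1 + M + N + M * N := by noncomm_ring
        _ = _ := by rw [MN]; abel
    rw [← e]
    exact this.symm
  · have := ((Conn.refl (uu.mul uP)).mul (kM (-1) (by simp))).mul (kN (-1) (by simp))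
    rw [mul_one, mul_one, neg_smul, neg_smul, one_smul, one_smul] at this
    have e : u * (1 - (P + P)) * (1 + -M) * (1 + -N) = a - b := by
      rw [d2, mul_assoc, mul_assoc]
      congr 1
      calc (1 - (P + P)) * ((1 + -M) * (1 + -N))
          = 1 - (P + P) - M - N + M * N + 2 • (P * M) + 2 • (P * N) - 2 • (P * (M * N)) := by
            noncomm_ring
        _ = _ := by rw [MN, PM, PN, mul_zero]; abel
    rw [← e]
    exact this.symm

end Cx

end Crest.Agent.N218.D8
end

-- ▼ part N218/D8/Wood2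

/-!
# The Wood lemma, second half
-/

set_option autoImplicit false
set_option linter.unusedSectionVars false

open Filter Topology Polynomial Matrix

namespace Crest.Agent.N218.D8

open Crest.Agent.R204.Bott671

variable {A R : Type*} [NormedCommRing A] [NormedAlgebra ℝ A] [NormedCommRing R]
  [NormedAlgebra ℂ R] [CompleteSpace R]
  {ι : Type} [Fintype ι] [DecidableEq ι]

/-- evaluation at a real scalar. -/
noncomputable def evR (A : Type*) [NormedCommRing A] [NormedAlgebra ℝ A] (s : ℝ) : A[X] →+* A :=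
  Polynomial.evalRingHom (algebraMap ℝ A s)

theorem evR_gpl {κ : Type} (a b : Matrix κ κ A) (s : ℝ) :
    (gpl a b).map (evR A s) = a + s • b := by
  ext i j
  simp only [gpl, evR, Matrix.map_apply, Matrix.add_apply, Matrix.smul_apply, smul_eq_mul,
    coe_evalRingHom, eval_add, eval_mul, eval_C, eval_X]
  rw [Algebra.smul_def]

theorem continuous_evR {κ l : Type} (E : Matrix κ l A[X]) :
    Continuous fun t : ℝ => E.map (evR A (1 - 2 * t)) :=
  continuous_matrix fun i j => (Polynomial.continuous (E i j)).comp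
    ((algebraMapCLM ℝ A).continuous.comp (by fun_prop))

namespace Cx

variable (c : Cx A R)

/-- the loop of a real polynomial. -/
noncomputable def lp : A[X] →+* C(Circle, R) := loop.comp (Polynomial.mapRingHom c.φ)

theorem lp_gpl {κ : Type} [Fintype κ] [DecidableEq κ] (a b : Matrix κ κ A) :
    (gpl a b).map c.lp = pl (a.map c.φ) (b.map c.φ) := by
  refine Matrix.ext fun i j => ?_
  have hx : c.lp X = zc := by simp [lp]
  have hc : ∀ r, c.lp (C r) = ContinuousMap.C (c.φ r) := fun r => by simp [lp]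
  simp only [gpl, pl, cM, Matrix.map_apply, Matrix.add_apply, Matrix.smul_apply, smul_eq_mul,
    map_add, map_mul, hx, hc]

theorem lp_apply (p : A[X]) (z : Circle) (s : ℝ) (h : (z : ℂ) = s) :
    c.lp p z = c.φ (evR A s p) := by
  change loop (p.map c.φ) z = c.φ (p.eval _)
  rw [loop_apply, h, ← c.sm, Polynomial.eval_map, Polynomial.eval₂_at_apply]

theorem poly (q : Matrix ι ι A[X]) (hq : IsUnit (q.map c.lp)) (hm : IsUnit (q.map (evR A (-1)))) :
    ∃ (α : Type) (_ : Fintype α) (_ : DecidableEq α) (P u : Matrix (ι ⊕ α) (ι ⊕ α) A),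
      P * P = P ∧ Conn (fromBlocks (q.map (evR A 1)) 0 0 1) u ∧
        Conn (fromBlocks (q.map (evR A (-1))) 0 0 1) (u * (1 - (P + P))) := by
  obtain ⟨κ, _, _, a, b, α, β, _, _, _, _, h⟩ := exists_pencil q
  have hab : fromBlocks (gpl a b) 0 0 (1 : Matrix β β A[X])
      = gpl (fromBlocks a 0 0 1) (fromBlocks b 0 0 0) := by
    simp only [gpl, fromBlocks_map, fromBlocks_smul, fromBlocks_add]
    simp
  rw [hab] at h
  set a' := fromBlocks a 0 0 (1 : Matrix β β A)
  set b' := fromBlocks b 0 0 (0 : Matrix β β A)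
  have blk : ∀ {T : Type _} [CommRing T] (f : A[X] →+* T),
      (fromBlocks q 0 0 (1 : Matrix α α A[X])).map f = fromBlocks (q.map f) 0 0 1 := by
    intro T _ f
    simp [fromBlocks_map]
  have blk' : (fromBlocks q 0 0 (1 : Matrix α α A[X])).map c.lp
      = fromBlocks (q.map c.lp) 0 0 1 := by
    simp [fromBlocks_map]
  have u1 : IsUnit (pl (a'.map c.φ) (b'.map c.φ)) := by
    rw [← c.lp_gpl]
    exact (h.map c.lp).isUnit (by rw [blk']; exact isUnit_fromBlocks_diag hq isUnit_one)
  have u2 : IsUnit (a' + (-1 : ℝ) • b') := by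
    rw [← evR_gpl]
    exact (h.map _).isUnit (by rw [blk]; exact isUnit_fromBlocks_diag hm isUnit_one)
  obtain ⟨E, F, E', F', h1, h2, h3, h4, h5⟩ := h
  have k0 : fromBlocks q 0 0 (1 : Matrix α α A[X]) = E' * gpl a' b' * F := by
    rw [Matrix.mul_assoc, ← h5, ← Matrix.mul_assoc, h1, Matrix.one_mul]
  have k1 : ∀ s, E'.map (evR A s) * E.map (evR A s) = 1 := fun s => by
    rw [← Matrix.map_mul, h1]; simp
  have k4 : ∀ s, F.map (evR A s) * F'.map (evR A s) = 1 := fun s => by
    rw [← Matrix.map_mul, h4]; simp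
  have k5 : ∀ s, fromBlocks (q.map (evR A s)) 0 0 (1 : Matrix α α A)
      = E'.map (evR A s) * (a' + s • b') * F.map (evR A s) := fun s => by
    rw [← blk, k0, Matrix.map_mul, Matrix.map_mul, evR_gpl]
  let a2 := E'.map (evR A 1) * a' * F.map (evR A 1)
  let b2 := E'.map (evR A 1) * b' * F.map (evR A 1)
  have u3 : IsUnit (pl (a2.map c.φ) (b2.map c.φ)) := by
    have e : pl (a2.map c.φ) (b2.map c.φ) = cM ((E'.map (evR A 1)).map c.φ)
        * pl (a'.map c.φ) (b'.map c.φ) * cM ((F.map (evR A 1)).map c.φ) := by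
      simp only [a2, b2, pl, Matrix.map_mul, cM_mul, Matrix.mul_add, Matrix.add_mul,
        Matrix.mul_smul, Matrix.smul_mul]
    rw [e]
    refine unit_sand (E := cM ((E.map (evR A 1)).map c.φ))
      (F' := cM ((F'.map (evR A 1)).map c.φ)) ?_ ?_ u1
    · rw [← cM_mul, ← Matrix.map_mul, k1]; simp [cM_one]
    · rw [← cM_mul, ← Matrix.map_mul, k4]; simp [cM_one]
  obtain ⟨P, u, hP, c1, c2⟩ := c.pencil a2 b2 u3
  refine ⟨α, inferInstance, inferInstance, P, u, hP, ?_, ?_⟩
  · have e : a2 + b2 = fromBlocks (q.map (evR A 1)) 0 0 1 := by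
      rw [k5, one_smul, Matrix.mul_add, Matrix.add_mul]
    rwa [e] at c1
  · refine Conn.trans (Conn.symm ?_) c2
    have := Conn.of_real (F := fun t : ℝ => E'.map (evR A (1 - 2 * t)) * (a' + (-1 : ℝ) • b')
      * F.map (evR A (1 - 2 * t)))
      (((continuous_evR E').matrix_mul continuous_const).matrix_mul (continuous_evR F))
      (fun t _ => unit_sand (k1 _) (k4 _) u2)
    simp only [mul_zero, sub_zero, mul_one] at this
    rw [show (1 : ℝ) - 2 = -1 by norm_num, ← k5] at this
    have e : a2 - b2 = E'.map (evR A 1) * (a' + (-1 : ℝ) • b') * F.map (evR A 1) := by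
      rw [neg_smul, one_smul, ← sub_eq_add_neg, Matrix.mul_sub, Matrix.sub_mul]
    rwa [e]

/-- symmetrisation of a Laurent approximation. -/
theorem symm (F : C(Circle, R)) (hF : ∀ z, c.τ (F z) = F z⁻¹) (N : ℕ) (p : R[X]) {δ : ℝ}
    (hδ : 0 < δ) (h : ‖F - zi ^ N * loop p‖ < δ / (1 + ‖c.stL‖)) :
    ∃ q : A[X], ‖F - zi ^ N * c.lp q‖ < δ := by
  have hl : C (algebraMap ℂ R (1 / 2)) * (p + p.map c.τ) ∈ Polynomial.lifts c.φ := by
    rw [Polynomial.lifts_iff_coeff_lifts]
    intro n
    refine c.ex _ ?_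
    simp only [coeff_C_mul, coeff_add, coeff_map, map_mul, map_add, c.inv, c.alg]
    rw [add_comm, map_div₀, map_one, map_ofNat]
  obtain ⟨q, hq⟩ := (Polynomial.mem_lifts _).1 hl
  refine ⟨q, ?_⟩
  have e0 : c.lp q = loop (C (algebraMap ℂ R (1 / 2)) * (p + p.map c.τ)) := by
    rw [← hq]; rfl
  have hK : 0 < 1 + ‖c.stL‖ := by positivity
  rw [ContinuousMap.norm_lt_iff _ (div_pos hδ hK)] at h
  rw [ContinuousMap.norm_lt_iff _ hδ]
  intro z
  have e1 : c.τ (loop p z⁻¹) = loop (p.map c.τ) z := by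
    rw [loop_apply, loop_apply, Polynomial.eval_map]
    have : algebraMap ℂ R (z : ℂ) = c.τ (algebraMap ℂ R ((z⁻¹ : Circle) : ℂ)) := by
      simp only [c.alg, Circle.coe_inv_eq_conj, Complex.conj_conj]
    rw [this, Polynomial.eval₂_at_apply]
  have e2 : c.τ ((zi : C(Circle, R)) z⁻¹) = zi z := by
    simp only [zi_apply, c.alg, inv_inv, Circle.coe_inv_eq_conj]
  have e3 : (F - zi ^ N * c.lp q : C(Circle, R)) z = (1 / 2 : ℂ) •
      ((F - zi ^ N * loop p : C(Circle, R)) z
      + c.τ ((F - zi ^ N * loop p : C(Circle, R)) z⁻¹)) := by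
    rw [e0, smul_C_mul, map_add]
    simp only [ContinuousMap.sub_apply, ContinuousMap.mul_apply, ContinuousMap.pow_apply,
      ContinuousMap.smul_apply, ContinuousMap.add_apply, map_sub, map_mul, map_pow, e1, e2,
      hF, inv_inv]
    rw [mul_smul_comm, mul_add]
    module
  rw [e3, norm_smul]
  have h1 := h z
  have h2 := h z⁻¹
  have h5 : ‖c.τ ((F - zi ^ N * loop p : C(Circle, R)) z⁻¹)‖ ≤ ‖c.stL‖ * (δ / (1 + ‖c.stL‖)) :=
    (c.stL.le_opNorm _).trans (mul_le_mul_of_nonneg_left h2.le (norm_nonneg _))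
  have h3 := norm_add_le ((F - zi ^ N * loop p : C(Circle, R)) z)
    (c.τ ((F - zi ^ N * loop p : C(Circle, R)) z⁻¹))
  have h4 : ‖(1 / 2 : ℂ)‖ = 1 / 2 := by simp
  have h6 : δ / (1 + ‖c.stL‖) + ‖c.stL‖ * (δ / (1 + ‖c.stL‖)) = δ := by field_simp
  rw [h4]
  linarith

/-- the doubled loop. -/
theorem dbl (u : Matrix ι ι A) (h : Conn 1 (u.map c.φ)) :
    ∃ F : Matrix ι ι C(Circle, R), IsUnit F ∧ (∀ i j z, c.τ (F i j z) = F i j z⁻¹) ∧
      evM 1 F = 1 ∧ evM (-1) F = u.map c.φ := by
  obtain ⟨γ, hγ⟩ := h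
  let g : Circle → Matrix ι ι R := fun z => γ.extend ((1 - (z : ℂ).re) / 2)
  have gc : Continuous g := γ.continuous_extend.comp (by fun_prop)
  have gu : ∀ z, IsUnit (g z) := fun z => by
    have : g z ∈ Set.range γ := by rw [← γ.extend_range]; exact ⟨_, rfl⟩
    obtain ⟨t, ht⟩ := this
    rw [← ht]; exact hγ t
  have gr : ∀ z : Circle, (z : ℂ).im = 0 → ∀ i j, c.τ (g z i j) = g z i j := fun z hz i j => by
    have h1 : (z : ℂ).re * (z : ℂ).re = 1 := by
      have := Circle.normSq_coe z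
      rwa [Complex.normSq_apply, hz, mul_zero, add_zero] at this
    rcases mul_self_eq_one_iff.1 h1 with h2 | h2
    · have : g z = 1 := by simp [g, h2]
      rw [this, Matrix.one_apply]
      split_ifs <;> simp
    · have : g z = u.map c.φ := by simp [g, h2]
      rw [this]; exact c.st _
  have gi : ∀ z : Circle, g z⁻¹ = g z := fun z => by
    simp only [g, Circle.coe_inv_eq_conj, Complex.conj_re]
  have ce : ∀ i j, Continuous fun z => g z i j := fun i j => gc.matrix_elem i j
  refine ⟨Matrix.of fun i j => ⟨fun z => if 0 ≤ (z : ℂ).im then g z i j else c.τ (g z i j),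
    (ce i j).if_le (c.cont.comp (ce i j)) continuous_const (by fun_prop)
      (fun z hz => (gr z hz.symm i j).symm)⟩, ?_, ?_, ?_, ?_⟩
  · rw [isUnit_iff_evM]
    intro z
    by_cases hz : 0 ≤ (z : ℂ).im
    · convert gu z using 1
      ext i j
      simp [hz]
    · convert (gu z).map c.τ.mapMatrix using 1
      ext i j
      simp [hz]
  · intro i j z
    simp only [Matrix.of_apply, ContinuousMap.coe_mk, gi, Circle.coe_inv_eq_conj, Complex.conj_im, Left.nonneg_neg_iff]
    rcases lt_trichotomy (z : ℂ).im 0 with h | h | h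
    · rw [if_neg (not_le.2 h), if_pos h.le, c.inv]
    · rw [if_pos h.ge, if_pos h.le, gr z h]
    · rw [if_pos h.le, if_neg (not_le.2 h)]
  · ext i j
    simp [g]
  · ext i j
    simp [g]

/-- **WOOD.** -/
theorem wood' (u : Matrix ι ι A) (h : Conn 1 (u.map c.φ)) :
    ∃ (α : Type) (_ : Fintype α) (_ : DecidableEq α) (P : Matrix (ι ⊕ α) (ι ⊕ α) A),
      P * P = P ∧ Conn (fromBlocks u 0 0 1) (1 - (P + P)) := by
  obtain ⟨F, hF, hs, h1, h2⟩ := c.dbl u h
  obtain ⟨δ, hδ, hball⟩ := exists_ball hF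
  obtain ⟨N, p, hp⟩ := exists_laurentM F (ε := δ / (1 + ‖c.stL‖)) (by positivity)
  choose q hq using fun i j => c.symm (F i j) (hs i j) N (p i j) hδ (hp i j)
  let L : Matrix ι ι C(Circle, R) := Matrix.of fun i j => zi ^ N * c.lp (q i j)
  let q2 : Matrix ι ι A[X] := Matrix.of fun i j => X ^ N * q i j
  have hL : IsUnit L := hball L hq
  have e1 : q2.map c.lp = ((zc : C(Circle, R)) ^ N * zc ^ N) • L := by
    refine Matrix.ext fun i j => ?_
    have hx : c.lp X = zc := by simp [lp]
    simp only [q2, L, Matrix.map_apply, map_mul, map_pow, hx, Matrix.smul_apply, smul_eq_mul,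
      Matrix.of_apply]
    calc (zc : C(Circle, R)) ^ N * c.lp (q i j)
        = zc ^ N * (zi ^ N * zc ^ N) * c.lp (q i j) := by
          rw [zi_pow_mul_zc_pow, mul_one]
      _ = _ := by ring
  have u2 : IsUnit (q2.map c.lp) := by
    rw [e1, Matrix.isUnit_iff_isUnit_det, Matrix.det_smul]
    have hz : IsUnit (zc : C(Circle, R)) := IsUnit.of_mul_eq_one _ zc_mul_zi
    exact (((hz.pow _).mul (hz.pow _)).pow _).mul ((Matrix.isUnit_iff_isUnit_det _).1 hL)
  have key : ∀ (z : Circle) (s : ℝ) (w : Matrix ι ι A), (z : ℂ) = s → z⁻¹ = z →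
      evM z F = w.map c.φ → Conn w (q2.map (evR A s)) := by
    intro z s w hz hi hw
    have e : evM z L = (q2.map (evR A s)).map c.φ := by
      ext i j
      simp only [L, q2, evM_apply, ContinuousMap.mul_apply, ContinuousMap.pow_apply, zi_apply, hi,
        Matrix.map_apply, map_mul, map_pow, c.lp_apply _ z s hz, hz, Matrix.of_apply]
      simp [evR, c.sm]
    have := Conn.of_real (F := fun t : ℝ => (1 - t) • w + t • q2.map (evR A s)) (by fun_prop)
      (fun t ht => by
        refine c.unitM ?_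
        have h3 := (isUnit_iff_evM _).1 (isUnit_segment (v := L) hball hq ht) z
        convert h3 using 1
        rw [Matrix.map_add _ (map_add c.φ), c.map_smul, c.map_smul, ← hw, ← e]
        ext i j
        simp)
    simpa using this
  have k1 := key 1 1 1 (by simp) (by simp) (by rw [h1]; simp)
  have k2 := key (-1) (-1) u (by simp) (by simp) h2
  obtain ⟨α, i1, i2, P, v, hP, c1, c2⟩ := c.poly q2 u2 k2.right
  refine ⟨α, i1, i2, P, hP, ?_⟩
  have one : Conn (1 : Matrix α α A) 1 := Conn.refl isUnit_one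
  have c3 : Conn v 1 := by
    have := ((k1.blocks one).trans c1).symm
    rwa [fromBlocks_one] at this
  have uP : IsUnit (1 - (P + P)) := by
    have e : (1 - (P + P)) * (1 - (P + P)) = 1 := by
      calc (1 - (P + P)) * (1 - (P + P)) = 1 - 4 • P + 4 • (P * P) := by noncomm_ring
        _ = 1 := by rw [hP]; abel
    exact ⟨⟨_, _, e, e⟩, rfl⟩
  have c4 := c3.mul (Conn.refl uP)
  rw [one_mul] at c4
  exact ((k2.blocks one).trans c2).trans c4

end Cx

end Crest.Agent.N218.D8
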